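import Mathlib
import Vale.Agent.P090.Free
import Vale.Agent.P090.Refute

/-!
A uniformly discrete metric space whose Lipschitz-free space fails the bounded approximation
property.
-/

namespace Vale.Agent.Results.P090.FreeSpaceWithoutBAP

open Vale.Agent.P090

/-- There is a countable uniformly discrete metric space whose Lipschitz-free space fails the
bounded approximation property. -/
theorem result : ∃ (M : Type) (_ : MetricSpace M) (o : M),
    Countable M ∧ (∃ c : ℝ, 0 < c ∧ ∀ x y : M, x ≠ y → c ≤ dist x y) ∧ ¬ FreeHasBAP M o := by
  refine ⟨Space, inferInstance, base, ?_, ⟨1, one_pos, fun x y h ↦ one_le_dist h⟩, space_not_bap⟩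
  have : ∀ lam, Countable (sys lam).P := fun lam ↦ (inferInstance : Countable Pb)
  exact inferInstance

end Vale.Agent.Results.P090.FreeSpaceWithoutBAP
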